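import Vale.Agent.P082.Reduction

open Vale.Agent.P082
open scoped InnerProductSpace

/-- For a von Neumann algebra with a tracial separating vector, bounded cohomology vanishes in a degree
as soon as it does for all countably generated von Neumann subalgebras. -/
theorem Vale.Agent.Results.P082.CountablyGenerated.result :
    ∀ (H : Type) [NormedAddCommGroup H] [InnerProductSpace ℂ H] [CompleteSpace H]
      (M : VonNeumannAlgebra H) (Ω : H),
      (∀ a ∈ M, ∀ b ∈ M, ⟪Ω, (a * b) Ω⟫_ℂ = ⟪Ω, (b * a) Ω⟫_ℂ) → (∀ a ∈ M, a Ω = 0 → a = 0) →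
      ∀ n : ℕ, (∀ N : VonNeumannAlgebra H, (N : Set (H →L[ℂ] H)) ⊆ M → CountGen N → Vanishes N n) →
        Vanishes M n := by
  intro H _ _ _ M Ω h1 h2 n hn
  exact vanishes_of_countGen ⟨h1, h2⟩ n hn
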